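import Vale.Agent.P060.Finite
import Vale.Agent.P060.Alpha

/-! Hadwiger's conjecture for dense graphs, and a finite check for each complement degree. -/

namespace Vale.Agent.Results.P060.DenseGraphs

open Vale.Agent.P060

theorem result :
    (∀ (V : Type) [Fintype V] [DecidableEq V] (G : SimpleGraph V) [DecidableRel G.Adj],
      (((∃ D : ℕ, (∀ v, Gᶜ.degree v ≤ D) ∧
          10 ^ 13 * D ^ 4 ≤ (Fintype.card V - G.cliqueNum) ^ 3) ∨
        (∃ D : ℕ, (∀ v, Gᶜ.degree v ≤ D) ∧ 10 ^ 13 * D ^ 4 * (D + 1) ^ 3 ≤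
          (Finset.univ.filter fun v => 0 < Gᶜ.degree v).card ^ 3) ∨
        (Gᶜ.CliqueFree 3 ∧ 10 ^ 14 * G.cliqueNum ^ 4 ≤ Fintype.card V ^ 3) ∨
        (∃ (D : ℕ) (M : Gᶜ.Subgraph), (∀ v, Gᶜ.degree v ≤ D) ∧ M.IsMatching ∧
          4 * D ^ 2 ≤ M.verts.ncard) ∨
        (∃ r, G.IsRegularOfDegree r ∧ 8 * (Fintype.card V - 1 - r) ^ 2 ≤ Fintype.card V) ∨
        (∃ (D : ℕ) (M : Gᶜ.Subgraph), (∀ v, Gᶜ.degree v ≤ D) ∧
          10 ^ 12 * D ^ 4 ≤ Fintype.card V ^ 3 ∧ M.IsMatching ∧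
          1000 * ((Fintype.card V - M.verts.ncard) * D) ≤ Fintype.card V)) →
        ∃ t : ℕ, G.chromaticNumber = t ∧ HasMinor G t) ∧
      ((∃ D : ℕ, (∀ v, Gᶜ.degree v ≤ D) ∧ 10 ^ 12 * D ^ 4 ≤ Fintype.card V ^ 3) →
        HasMinor G ((Fintype.card V + 1) / 2))) ∧
    (∀ D : ℕ,
      (∀ (W : Type) [Fintype W] [DecidableEq W] (G : SimpleGraph W) [DecidableRel G.Adj],
        Fintype.card W ^ 3 ≤ 10 ^ 13 * D ^ 4 * (D + 1) ^ 3 → (∀ v, Gᶜ.degree v ≤ D) →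
        ∃ t : ℕ, G.chromaticNumber = t ∧ HasMinor G t) →
      ∀ (V : Type) [Fintype V] [DecidableEq V] (G : SimpleGraph V) [DecidableRel G.Adj],
        (∀ v, Gᶜ.degree v ≤ D) → ∃ t : ℕ, G.chromaticNumber = t ∧ HasMinor G t) := by
  refine ⟨fun V _ _ G _ => ⟨?_, fun ⟨D, hD, hn⟩ => hasMinor_half G D hD hn⟩, ?_⟩
  · rintro (⟨D, hD, hn⟩ | ⟨D, hD, hn⟩ | ⟨hα, hω⟩ | ⟨D, M, hD, hM, hbig⟩ | ⟨r, hr, hn⟩ |
      ⟨D, M, hD, hn, hM, hu⟩)
    · obtain ⟨t, h1, h2⟩ := hadwiger_omega G D hD hn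
      exact satisfies_of h1 h2
    · obtain ⟨t, h1, h2⟩ := hadwiger_nonuniversal G D hD hn
      exact satisfies_of h1 h2
    · obtain ⟨t, h1, h2⟩ := hadwiger_alpha_two G hα hω
      exact satisfies_of h1 h2
    · obtain ⟨t, h1, h2⟩ := of_matching G D hD M hM hbig
      exact satisfies_of h1 h2
    · obtain ⟨t, h1, h2⟩ := of_regular G r hr hn
      exact satisfies_of h1 h2
    · obtain ⟨t, h1, h2⟩ := of_nearMatching G D hD hn M hM hu
      exact satisfies_of h1 h2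
  · intro D small V _ _ G _ hD
    have small' : ∀ (W : Type) [Fintype W] [DecidableEq W] (G : SimpleGraph W) [DecidableRel G.Adj],
        Fintype.card W ^ 3 ≤ 10 ^ 13 * D ^ 4 * (D + 1) ^ 3 → (∀ v, Gᶜ.degree v ≤ D) →
        ∃ t, G.Colorable t ∧ HasMinor G t := by
      intro W _ _ G _ h1 h2
      obtain ⟨t, ht, hm⟩ := small W G h1 h2
      exact ⟨t, SimpleGraph.chromaticNumber_le_iff_colorable.1 ht.le, hm⟩
    obtain ⟨t, h1, h2⟩ := hadwiger_finite_check D small' _ V G rfl hD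
    exact satisfies_of h1 h2

end Vale.Agent.Results.P060.DenseGraphs
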